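import Vale.Agent.P365.T2.UpsGen844

/-!
# P365-T2, X-LAWERR (87's note 20676): the KEY scalar lemma

`|Gf1 ε u - Gf1 ε u₀| n₀ ≤ 5 T' (|n - n₀| + |q - q₀| n₀ / q₀)` for `u = n² / (ρ q²)`.
-/

set_option linter.all false

namespace P365T2.H556

open P365T2.H844

/-- derivative of `Gf1` in the variable `log u` -/
theorem Gf1_exp_deriv {ε : ℝ} (hε : 0 < ε) (x : ℝ) :
    HasDerivAt (fun x => Gf1 ε (Real.exp x))
      (Real.exp x / (Real.exp x + ε) + Real.exp x * ε / (Real.exp x + ε) ^ 2) x := by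
  have h0 : 0 < Real.exp x + ε := by positivity
  have h1 : HasDerivAt (fun x => Real.exp x + ε) (Real.exp x) x :=
    (Real.hasDerivAt_exp x).add_const ε
  have h2 := h1.log h0.ne'
  have h3 := (Real.hasDerivAt_exp x).div h1 h0.ne'
  have h4 := h2.add h3
  unfold Gf1
  refine h4.congr_deriv ?_
  congr 1
  congr 1
  ring

/-- `Gf1` is `5/4`-Lipschitz in `log u` -/
theorem Gf1_exp_lip {ε : ℝ} (hε : 0 < ε) (x y : ℝ) :
    |Gf1 ε (Real.exp x) - Gf1 ε (Real.exp y)| ≤ 5 / 4 * |x - y| := by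
  have h := Convex.norm_image_sub_le_of_norm_hasDerivWithin_le (𝕜 := ℝ) (s := Set.univ)
    (f := fun x => Gf1 ε (Real.exp x))
    (f' := fun x => Real.exp x / (Real.exp x + ε) + Real.exp x * ε / (Real.exp x + ε) ^ 2)
    (C := 5 / 4) (x := y) (y := x) (fun z _ => (Gf1_exp_deriv hε z).hasDerivWithinAt)
    (fun z _ => by
      have hz := Real.exp_pos z
      have h0 : 0 < Real.exp z + ε := by positivity
      rw [Real.norm_eq_abs, abs_of_nonneg (by positivity)]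
      rw [div_add_div _ _ h0.ne' (by positivity), div_le_div_iff₀ (by positivity) (by norm_num)]
      generalize Real.exp z = a at *
      have h5 : 0 ≤ (a + ε) * (a - ε) ^ 2 := by positivity
      nlinarith [h5]) convex_univ
    (Set.mem_univ _) (Set.mem_univ _)
  simpa [Real.norm_eq_abs] using h

/-- `|log (1 + x)| ≤ 2 |x|` in ratio form -/
theorem abs_log_ratio {a b : ℝ} (hb : 0 < b) (h : |a - b| ≤ b / 2) :
    0 < a ∧ |Real.log a - Real.log b| ≤ 2 * (|a - b| / b) := by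
  have h1 := abs_le.1 h
  have ha : 0 < a := by linarith [h1.1]
  refine ⟨ha, ?_⟩
  have ha2 : b / 2 ≤ a := by linarith [h1.1]
  rw [← Real.log_div ha.ne' hb.ne', abs_le]
  constructor
  · -- lower bound: log (a/b) ≥ 1 - b/a
    have h2 := Real.one_sub_inv_le_log_of_pos (div_pos ha hb)
    rw [inv_div] at h2
    refine le_trans ?_ h2
    have h3 : b / a - 1 = (b - a) / a := by field_simp
    have h4 : (b - a) / a ≤ 2 * (|a - b| / b) := by
      rw [div_le_iff₀ ha]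
      have h5 : b - a ≤ |a - b| := by rw [abs_sub_comm]; exact le_abs_self _
      have h6 : |a - b| ≤ 2 * (|a - b| / b) * a := by
        have h7 : 2 * (|a - b| / b) * a = |a - b| * (2 * a / b) := by field_simp
        rw [h7]
        refine le_mul_of_one_le_right (abs_nonneg _) ?_
        rw [le_div_iff₀ hb]
        linarith
      linarith
    linarith
  · have h2 := Real.log_le_sub_one_of_pos (div_pos ha hb)
    refine h2.trans ?_
    have h3 : a / b - 1 = (a - b) / b := by field_simp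
    rw [h3]
    have h4 : (a - b) / b ≤ |a - b| / b := div_le_div_of_nonneg_right (le_abs_self _) hb.le
    have h5 : 0 ≤ |a - b| / b := by positivity
    linarith

/-- **KEY**: the change of the multiplier, in terms of the norms `n` (of the row content) and `q`
(of the row), in all cases -/
theorem key {ε ρ T' n n₀ q q₀ : ℝ} (hε : 0 < ε) (hρ : 0 < ρ) (hT : 1 ≤ T') (hn : 0 ≤ n)
    (hn₀ : 0 ≤ n₀) (hq : 0 < q) (hq₀ : 0 < q₀)
    (h1 : |Gf1 ε (n ^ 2 / (ρ * q ^ 2))| ≤ T') (h2 : |Gf1 ε (n₀ ^ 2 / (ρ * q₀ ^ 2))| ≤ T') :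
    |Gf1 ε (n ^ 2 / (ρ * q ^ 2)) - Gf1 ε (n₀ ^ 2 / (ρ * q₀ ^ 2))| * n₀ ≤
      5 * T' * (|n - n₀| + |q - q₀| * n₀ / q₀) := by
  have hd : |Gf1 ε (n ^ 2 / (ρ * q ^ 2)) - Gf1 ε (n₀ ^ 2 / (ρ * q₀ ^ 2))| ≤ 2 * T' := by
    have := abs_sub (Gf1 ε (n ^ 2 / (ρ * q ^ 2))) (Gf1 ε (n₀ ^ 2 / (ρ * q₀ ^ 2)))
    linarith
  have hd0 := abs_nonneg (Gf1 ε (n ^ 2 / (ρ * q ^ 2)) - Gf1 ε (n₀ ^ 2 / (ρ * q₀ ^ 2)))
  have a1 := abs_nonneg (n - n₀)
  have a2 : 0 ≤ |q - q₀| * n₀ / q₀ := by positivity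
  rcases le_or_gt n₀ (2 * |n - n₀|) with hA | hA
  · calc _ ≤ 2 * T' * (2 * |n - n₀|) := mul_le_mul hd hA hn₀ (by linarith)
      _ ≤ _ := by nlinarith
  rcases le_or_gt q₀ (2 * |q - q₀|) with hB | hB
  · have h3 : n₀ ≤ 2 * (|q - q₀| * n₀ / q₀) := by
      have h4 : 2 * (|q - q₀| * n₀ / q₀) = n₀ * (2 * |q - q₀| / q₀) := by ring
      rw [h4]
      refine le_mul_of_one_le_right hn₀ ?_
      rw [le_div_iff₀ hq₀]
      linarith
    calc _ ≤ 2 * T' * (2 * (|q - q₀| * n₀ / q₀)) := mul_le_mul hd h3 hn₀ (by linarith)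
      _ ≤ _ := by nlinarith
  · have hn₀' : 0 < n₀ := lt_of_le_of_lt (by positivity) hA
    obtain ⟨hn', l1⟩ := abs_log_ratio hn₀' (show |n - n₀| ≤ n₀ / 2 by linarith)
    obtain ⟨-, l2⟩ := abs_log_ratio hq₀ (show |q - q₀| ≤ q₀ / 2 by linarith)
    have e : ∀ a b : ℝ, 0 < a → 0 < b → a ^ 2 / (ρ * b ^ 2) =
        Real.exp (2 * Real.log a - Real.log ρ - 2 * Real.log b) := by
      intro a b ha hb
      rw [Real.exp_sub, Real.exp_sub, Real.exp_log hρ]
      have h5 : ∀ c : ℝ, 0 < c → Real.exp (2 * Real.log c) = c ^ 2 := by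
        intro c hc
        rw [two_mul, Real.exp_add, Real.exp_log hc, sq]
      rw [h5 a ha, h5 b hb, div_div]
    rw [e n q hn' hq, e n₀ q₀ hn₀' hq₀]
    have h6 := Gf1_exp_lip hε (2 * Real.log n - Real.log ρ - 2 * Real.log q)
      (2 * Real.log n₀ - Real.log ρ - 2 * Real.log q₀)
    have h7 : |(2 * Real.log n - Real.log ρ - 2 * Real.log q) -
        (2 * Real.log n₀ - Real.log ρ - 2 * Real.log q₀)| ≤
        4 * (|n - n₀| / n₀) + 4 * (|q - q₀| / q₀) := by
      have h8 : (2 * Real.log n - Real.log ρ - 2 * Real.log q) -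
          (2 * Real.log n₀ - Real.log ρ - 2 * Real.log q₀) =
          2 * (Real.log n - Real.log n₀) - 2 * (Real.log q - Real.log q₀) := by ring
      rw [h8]
      refine (abs_sub _ _).trans ?_
      rw [abs_mul, abs_mul, abs_two]
      linarith
    have h9 : 5 / 4 * (4 * (|n - n₀| / n₀) + 4 * (|q - q₀| / q₀)) * n₀ =
        5 * (|n - n₀| + |q - q₀| * n₀ / q₀) := by
      field_simp
    calc _ ≤ 5 / 4 * (4 * (|n - n₀| / n₀) + 4 * (|q - q₀| / q₀)) * n₀ :=
          mul_le_mul_of_nonneg_right (h6.trans (by linarith)) hn₀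
      _ = 5 * (|n - n₀| + |q - q₀| * n₀ / q₀) := h9
      _ ≤ 5 * T' * (|n - n₀| + |q - q₀| * n₀ / q₀) := by
          refine mul_le_mul_of_nonneg_right ?_ (by positivity)
          linarith

end P365T2.H556
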